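import Mathlib

namespace Vale.Agent.H8Mould

open scoped ContDiff
open Set

abbrev S3 := EuclideanSpace ℝ (Fin 3)

theorem smooth_of_ode {X : Type*} [NormedAddCommGroup X] [NormedSpace ℝ X] {V : X → X}
    (hV : ContDiff ℝ ∞ V) {α : ℝ → X} {J : Set ℝ} (hJ : IsOpen J)
    (h : ∀ t ∈ J, HasDerivAt α (V (α t)) t) : ContDiffOn ℝ ∞ α J := by
  rw [contDiffOn_infty]
  intro n
  induction n with
  | zero => exact contDiffOn_zero.2 (fun t ht => (h t ht).continuousAt.continuousWithinAt)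
  | succ n ih =>
    push_cast
    rw [contDiffOn_succ_iff_deriv_of_isOpen hJ]
    refine ⟨fun t ht => (h t ht).differentiableAt.differentiableWithinAt, by simp, ?_⟩
    exact ((hV.of_le (mod_cast le_top)).comp_contDiffOn ih).congr (fun t ht => (h t ht).deriv)

theorem const_on {J : Set ℝ} (hJ : IsOpen J) (hJ' : IsPreconnected J) {f : ℝ → ℝ}
    (h : ∀ t ∈ J, HasDerivAt f 0 t) {s t : ℝ} (hs : s ∈ J) (ht : t ∈ J) : f s = f t :=
  hJ.is_const_of_deriv_eq_zero hJ' (fun t ht => (h t ht).differentiableAt.differentiableWithinAt)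
    (fun t ht => (h t ht).deriv) hs ht

theorem dfst {A B : Type*} [NormedAddCommGroup A] [NormedSpace ℝ A] [NormedAddCommGroup B]
    [NormedSpace ℝ B] {α : ℝ → A × B} {α' : A × B} {t : ℝ} (h : HasDerivAt α α' t) :
    HasDerivAt (fun t => (α t).1) α'.1 t :=
  (ContinuousLinearMap.fst ℝ A B).hasFDerivAt.comp_hasDerivAt t h

theorem dsnd {A B : Type*} [NormedAddCommGroup A] [NormedSpace ℝ A] [NormedAddCommGroup B]
    [NormedSpace ℝ B] {α : ℝ → A × B} {α' : A × B} {t : ℝ} (h : HasDerivAt α α' t) :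
    HasDerivAt (fun t => (α t).2) α'.2 t :=
  (ContinuousLinearMap.snd ℝ A B).hasFDerivAt.comp_hasDerivAt t h

theorem frame {a k l : ℝ → ℝ} (ha : ContDiff ℝ ∞ a) (hk : ContDiff ℝ ∞ k) (hl : ContDiff ℝ ∞ l)
    (v0 : ℝ) : ∃ J : Set ℝ, IsOpen J ∧ v0 ∈ J ∧ ∃ γ T e f : ℝ → S3,
      ContDiffOn ℝ ∞ γ J ∧ ContDiffOn ℝ ∞ e J ∧ ContDiffOn ℝ ∞ f J ∧
      ∀ t ∈ J, HasDerivAt γ (a t • T t) t ∧ HasDerivAt e (k t • T t) t ∧
        HasDerivAt f (l t • T t) t ∧ inner ℝ (T t) (T t) = 1 ∧ inner ℝ (e t) (e t) = 1 ∧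
        inner ℝ (f t) (f t) = 1 ∧ inner ℝ (T t) (e t) = 0 ∧ inner ℝ (T t) (f t) = 0 ∧
        inner ℝ (e t) (f t) = 0 := by
  set V : ℝ × S3 × S3 × S3 × S3 → ℝ × S3 × S3 × S3 × S3 := fun z =>
    (1, a z.1 • z.2.2.1, -(k z.1 • z.2.2.2.1) - l z.1 • z.2.2.2.2, k z.1 • z.2.2.1,
      l z.1 • z.2.2.1) with hVd
  have hV : ContDiff ℝ ∞ V := by
    rw [hVd]
    fun_prop
  obtain ⟨α, hα0, ε, hε, hα⟩ :=
    (hV.contDiffAt.of_le (mod_cast le_top) :
      ContDiffAt ℝ 1 V (v0, 0, EuclideanSpace.single 0 1, EuclideanSpace.single 1 1,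
        EuclideanSpace.single 2 1)).exists_forall_mem_closedBall_exists_eq_forall_mem_Ioo_hasDerivAt₀ v0
  set J := Ioo (v0 - ε) (v0 + ε) with hJd
  have hJo : IsOpen J := isOpen_Ioo
  have hJc : IsPreconnected J := isPreconnected_Ioo
  have hJ0 : v0 ∈ J := by constructor <;> linarith
  have hsm : ContDiffOn ℝ ∞ α J := smooth_of_ode hV hJo hα
  have h1 : ∀ t ∈ J, (α t).1 = t := by
    intro t ht
    have h := const_on hJo hJc (f := fun t => (α t).1 - t) (fun s hs => by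
      exact ((dfst (hα s hs)).sub (hasDerivAt_id s)).congr_deriv (by simp [hVd])) hJ0 ht
    simp [hα0] at h
    linarith
  have hγ : ∀ t ∈ J, HasDerivAt (fun t => (α t).2.1) (a t • (α t).2.2.1) t := by
    intro t ht
    exact (dfst (dsnd (hα t ht))).congr_deriv (by simp [hVd, h1 t ht])
  have hT : ∀ t ∈ J, HasDerivAt (fun t => (α t).2.2.1)
      (-(k t • (α t).2.2.2.1) - l t • (α t).2.2.2.2) t := by
    intro t ht
    exact (dfst (dsnd (dsnd (hα t ht)))).congr_deriv (by simp [hVd, h1 t ht])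
  have he : ∀ t ∈ J, HasDerivAt (fun t => (α t).2.2.2.1) (k t • (α t).2.2.1) t := by
    intro t ht
    exact (dfst (dsnd (dsnd (dsnd (hα t ht))))).congr_deriv (by simp [hVd, h1 t ht])
  have hf : ∀ t ∈ J, HasDerivAt (fun t => (α t).2.2.2.2) (l t • (α t).2.2.1) t := by
    intro t ht
    exact (dsnd (dsnd (dsnd (dsnd (hα t ht))))).congr_deriv (by simp [hVd, h1 t ht])
  have coord : ∀ {w : ℝ → S3} {w' : S3} {t : ℝ} (i : Fin 3), HasDerivAt w w' t →
      HasDerivAt (fun t => w t i) (w' i) t := by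
    intro w w' t i h
    exact (EuclideanSpace.proj (𝕜 := ℝ) i).hasFDerivAt.comp_hasDerivAt t h
  have hP : ∀ t ∈ J, ∀ i j : Fin 3, (α t).2.2.1 i * (α t).2.2.1 j +
      (α t).2.2.2.1 i * (α t).2.2.2.1 j + (α t).2.2.2.2 i * (α t).2.2.2.2 j =
        if i = j then 1 else 0 := by
    intro t ht i j
    have h := const_on hJo hJc (f := fun t => (α t).2.2.1 i * (α t).2.2.1 j +
      (α t).2.2.2.1 i * (α t).2.2.2.1 j + (α t).2.2.2.2 i * (α t).2.2.2.2 j) (fun s hs => by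
        have h2 := (((coord i (hT s hs)).mul (coord j (hT s hs))).add
          ((coord i (he s hs)).mul (coord j (he s hs)))).add
          ((coord i (hf s hs)).mul (coord j (hf s hs)))
        refine h2.congr_deriv ?_
        simp
        ring) ht hJ0
    refine h.trans ?_
    simp only [hα0]
    fin_cases i <;> fin_cases j <;> simp
  refine ⟨J, hJo, hJ0, fun t => (α t).2.1, fun t => (α t).2.2.1, fun t => (α t).2.2.2.1,
    fun t => (α t).2.2.2.2, hsm.snd.fst, hsm.snd.snd.snd.fst, hsm.snd.snd.snd.snd, ?_⟩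
  intro t ht
  set M : Matrix (Fin 3) (Fin 3) ℝ := Matrix.of fun i m =>
    ![(α t).2.2.1 i, (α t).2.2.2.1 i, (α t).2.2.2.2 i] m with hM
  have hMM : M * M.transpose = 1 := by
    ext i j
    rw [Matrix.mul_apply, Fin.sum_univ_three, Matrix.one_apply, ← hP t ht i j]
    simp [hM]
  have hMM' : M.transpose * M = 1 := mul_eq_one_comm.1 hMM
  have hin : ∀ m n : Fin 3, M 0 m * M 0 n + M 1 m * M 1 n + M 2 m * M 2 n =
      if m = n then 1 else 0 := by
    intro m n
    have := congrFun (congrFun hMM' m) n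
    rw [Matrix.mul_apply, Fin.sum_univ_three, Matrix.one_apply] at this
    simpa using this
  have inn : ∀ x y : S3, inner ℝ x y = x 0 * y 0 + x 1 * y 1 + x 2 * y 2 := by
    intro x y
    rw [PiLp.inner_apply, Fin.sum_univ_three]
    simp [mul_comm]
  refine ⟨hγ t ht, he t ht, hf t ht, ?_, ?_, ?_, ?_, ?_, ?_⟩
  · rw [inn]; simpa [hM] using hin 0 0
  · rw [inn]; simpa [hM] using hin 1 1
  · rw [inn]; simpa [hM] using hin 2 2
  · rw [inn]; simpa [hM] using hin 0 1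
  · rw [inn]; simpa [hM] using hin 0 2
  · rw [inn]; simpa [hM] using hin 1 2

end Vale.Agent.H8Mould
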