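import Vale.Agent.H8Mould

namespace Vale.Agent.H8MouldB

open scoped ContDiff
open Set

theorem assemble {Ω : Set (EuclideanSpace ℝ (Fin 2))} (hΩ : IsOpen Ω)
    {g : EuclideanSpace ℝ (Fin 2) → Fin 2 → Fin 2 → ℝ} {p : EuclideanSpace ℝ (Fin 2)}
    (hp : p ∈ Ω) {u v : EuclideanSpace ℝ (Fin 2) → ℝ} (hu : ContDiffOn ℝ ∞ u Ω)
    (hv : ContDiffOn ℝ ∞ v Ω) {I : Set ℝ} (hI : IsOpen I) (hpI : u p ∈ I)
    {r h dr dh E : ℝ → ℝ} (hr : ContDiffOn ℝ ∞ r I) (hh : ContDiffOn ℝ ∞ h I)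
    (hdr : ∀ s ∈ I, HasDerivAt r (dr s) s) (hdh : ∀ s ∈ I, HasDerivAt h (dh s) s)
    (hE : ∀ s ∈ I, E s = dr s ^ 2 + dh s ^ 2)
    {a b c : ℝ → ℝ} (ha : ContDiff ℝ ∞ a) (hb : ContDiff ℝ ∞ b) (hc : ContDiff ℝ ∞ c)
    (hg : ∀ x ∈ Ω, ∀ i j : Fin 2, g x i j = E (u x) * fderiv ℝ u x (EuclideanSpace.single i 1) *
        fderiv ℝ u x (EuclideanSpace.single j 1) +
      (a (v x) + b (v x) * r (u x) + c (v x) * h (u x)) ^ 2 *
        fderiv ℝ v x (EuclideanSpace.single i 1) * fderiv ℝ v x (EuclideanSpace.single j 1)) :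
    ∃ U : Set (EuclideanSpace ℝ (Fin 2)), IsOpen U ∧ p ∈ U ∧ U ⊆ Ω ∧
    ∃ F : EuclideanSpace ℝ (Fin 2) → EuclideanSpace ℝ (Fin 3), ContDiffOn ℝ ∞ F U ∧
      ∀ x ∈ U, ∀ i j : Fin 2, inner ℝ (fderiv ℝ F x (EuclideanSpace.single i 1))
        (fderiv ℝ F x (EuclideanSpace.single j 1)) = g x i j := by
  obtain ⟨J, hJ, hvJ, γ, T, e, f, hγs, hes, hfs, hfr⟩ := H8Mould.frame ha hb hc (v p)
  have hU1 : IsOpen (Ω ∩ u ⁻¹' I) := hu.continuousOn.isOpen_inter_preimage hΩ hI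
  have hU2 : IsOpen (Ω ∩ v ⁻¹' J) := hv.continuousOn.isOpen_inter_preimage hΩ hJ
  refine ⟨(Ω ∩ u ⁻¹' I) ∩ (Ω ∩ v ⁻¹' J), hU1.inter hU2, ⟨⟨hp, hpI⟩, ⟨hp, hvJ⟩⟩,
    fun x hx => hx.1.1, fun x => γ (v x) + (r (u x) • e (v x) + h (u x) • f (v x)), ?_, ?_⟩
  · have hu' : ContDiffOn ℝ ∞ u ((Ω ∩ u ⁻¹' I) ∩ (Ω ∩ v ⁻¹' J)) :=
      hu.mono (fun x hx => hx.1.1)
    have hv' : ContDiffOn ℝ ∞ v ((Ω ∩ u ⁻¹' I) ∩ (Ω ∩ v ⁻¹' J)) :=
      hv.mono (fun x hx => hx.1.1)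
    have m1 : MapsTo u ((Ω ∩ u ⁻¹' I) ∩ (Ω ∩ v ⁻¹' J)) I := fun x hx => hx.1.2
    have m2 : MapsTo v ((Ω ∩ u ⁻¹' I) ∩ (Ω ∩ v ⁻¹' J)) J := fun x hx => hx.2.2
    exact (hγs.comp hv' m2).add (((hr.comp hu' m1).smul (hes.comp hv' m2)).add
      ((hh.comp hu' m1).smul (hfs.comp hv' m2)))
  · intro x hx i j
    have hux : HasFDerivAt u (fderiv ℝ u x) x :=
      ((hu.contDiffAt (hΩ.mem_nhds hx.1.1)).differentiableAt (by simp)).hasFDerivAt
    have hvx : HasFDerivAt v (fderiv ℝ v x) x :=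
      ((hv.contDiffAt (hΩ.mem_nhds hx.1.1)).differentiableAt (by simp)).hasFDerivAt
    obtain ⟨dγ, de, df, TT, ee, ff, Te, Tf, ef⟩ := hfr (v x) hx.2.2
    have h1 := dγ.hasFDerivAt.comp x hvx
    have h2 := de.hasFDerivAt.comp x hvx
    have h3 := df.hasFDerivAt.comp x hvx
    have h4 := (hdr (u x) hx.1.2).hasFDerivAt.comp x hux
    have h5 := (hdh (u x) hx.1.2).hasFDerivAt.comp x hux
    have htot := h1.add ((h4.smul h2).add (h5.smul h3))
    have key : ∀ i : Fin 2,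
        fderiv ℝ (fun x => γ (v x) + (r (u x) • e (v x) + h (u x) • f (v x))) x
          (EuclideanSpace.single i 1) =
        fderiv ℝ v x (EuclideanSpace.single i 1) •
            ((a (v x) + b (v x) * r (u x) + c (v x) * h (u x)) • T (v x)) +
          fderiv ℝ u x (EuclideanSpace.single i 1) •
            (dr (u x) • e (v x) + dh (u x) • f (v x)) := by
      intro i
      have h6 : fderiv ℝ (fun x => γ (v x) + (r (u x) • e (v x) + h (u x) • f (v x))) x = _ :=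
        htot.fderiv
      rw [h6]
      simp
      module
    have eT : inner ℝ (e (v x)) (T (v x)) = 0 := by rw [real_inner_comm]; exact Te
    have fT : inner ℝ (f (v x)) (T (v x)) = 0 := by rw [real_inner_comm]; exact Tf
    have fe : inner ℝ (f (v x)) (e (v x)) = 0 := by rw [real_inner_comm]; exact ef
    rw [key i, key j, hg x hx.1.1 i j, hE _ hx.1.2]
    simp only [inner_add_left, inner_add_right, real_inner_smul_left, real_inner_smul_right,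
      TT, ee, ff, Te, Tf, ef, eT, fT, fe]
    ring

/-- Surfaces of translation. -/
theorem assembleT {Ω : Set (EuclideanSpace ℝ (Fin 2))} (hΩ : IsOpen Ω)
    {g : EuclideanSpace ℝ (Fin 2) → Fin 2 → Fin 2 → ℝ} {p : EuclideanSpace ℝ (Fin 2)}
    (hp : p ∈ Ω) {u v : EuclideanSpace ℝ (Fin 2) → ℝ} (hu : ContDiffOn ℝ ∞ u Ω)
    (hv : ContDiffOn ℝ ∞ v Ω) {I J : Set ℝ} (hI : IsOpen I) (hpI : u p ∈ I)
    (hJ : IsOpen J) (hpJ : v p ∈ J)
    {α β dα dβ : ℝ → EuclideanSpace ℝ (Fin 3)} (hα : ContDiffOn ℝ ∞ α I)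
    (hβ : ContDiffOn ℝ ∞ β J)
    (hdα : ∀ s ∈ I, HasDerivAt α (dα s) s) (hdβ : ∀ s ∈ J, HasDerivAt β (dβ s) s)
    (hg : ∀ x ∈ Ω, u x ∈ I → v x ∈ J → ∀ i j : Fin 2, g x i j =
      inner ℝ (dα (u x)) (dα (u x)) * (fderiv ℝ u x (EuclideanSpace.single i 1) *
        fderiv ℝ u x (EuclideanSpace.single j 1)) +
      inner ℝ (dα (u x)) (dβ (v x)) * (fderiv ℝ u x (EuclideanSpace.single i 1) *
        fderiv ℝ v x (EuclideanSpace.single j 1) + fderiv ℝ v x (EuclideanSpace.single i 1) *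
        fderiv ℝ u x (EuclideanSpace.single j 1)) +
      inner ℝ (dβ (v x)) (dβ (v x)) * (fderiv ℝ v x (EuclideanSpace.single i 1) *
        fderiv ℝ v x (EuclideanSpace.single j 1))) :
    ∃ U : Set (EuclideanSpace ℝ (Fin 2)), IsOpen U ∧ p ∈ U ∧ U ⊆ Ω ∧
    ∃ F : EuclideanSpace ℝ (Fin 2) → EuclideanSpace ℝ (Fin 3), ContDiffOn ℝ ∞ F U ∧
      ∀ x ∈ U, ∀ i j : Fin 2, inner ℝ (fderiv ℝ F x (EuclideanSpace.single i 1))
        (fderiv ℝ F x (EuclideanSpace.single j 1)) = g x i j := by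
  have hU1 : IsOpen (Ω ∩ u ⁻¹' I) := hu.continuousOn.isOpen_inter_preimage hΩ hI
  have hU2 : IsOpen (Ω ∩ v ⁻¹' J) := hv.continuousOn.isOpen_inter_preimage hΩ hJ
  refine ⟨(Ω ∩ u ⁻¹' I) ∩ (Ω ∩ v ⁻¹' J), hU1.inter hU2, ⟨⟨hp, hpI⟩, ⟨hp, hpJ⟩⟩,
    fun x hx => hx.1.1, fun x => α (u x) + β (v x), ?_, ?_⟩
  · have hu' : ContDiffOn ℝ ∞ u ((Ω ∩ u ⁻¹' I) ∩ (Ω ∩ v ⁻¹' J)) :=
      hu.mono (fun x hx => hx.1.1)
    have hv' : ContDiffOn ℝ ∞ v ((Ω ∩ u ⁻¹' I) ∩ (Ω ∩ v ⁻¹' J)) :=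
      hv.mono (fun x hx => hx.1.1)
    have m1 : MapsTo u ((Ω ∩ u ⁻¹' I) ∩ (Ω ∩ v ⁻¹' J)) I := fun x hx => hx.1.2
    have m2 : MapsTo v ((Ω ∩ u ⁻¹' I) ∩ (Ω ∩ v ⁻¹' J)) J := fun x hx => hx.2.2
    exact (hα.comp hu' m1).add (hβ.comp hv' m2)
  · intro x hx i j
    have hux : HasFDerivAt u (fderiv ℝ u x) x :=
      ((hu.contDiffAt (hΩ.mem_nhds hx.1.1)).differentiableAt (by simp)).hasFDerivAt
    have hvx : HasFDerivAt v (fderiv ℝ v x) x :=
      ((hv.contDiffAt (hΩ.mem_nhds hx.1.1)).differentiableAt (by simp)).hasFDerivAt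
    have h1 := (hdα _ hx.1.2).hasFDerivAt.comp x hux
    have h2 := (hdβ _ hx.2.2).hasFDerivAt.comp x hvx
    have htot := h1.add h2
    have key : ∀ i : Fin 2, fderiv ℝ (fun x => α (u x) + β (v x)) x
          (EuclideanSpace.single i 1) = fderiv ℝ u x (EuclideanSpace.single i 1) • dα (u x) +
          fderiv ℝ v x (EuclideanSpace.single i 1) • dβ (v x) := by
      intro i
      have h6 : fderiv ℝ (fun x => α (u x) + β (v x)) x = _ := htot.fderiv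
      rw [h6]
      simp
    have hc : inner ℝ (dβ (v x)) (dα (u x)) = inner ℝ (dα (u x)) (dβ (v x)) :=
      real_inner_comm _ _
    rw [key i, key j, hg x hx.1.1 hx.1.2 hx.2.2 i j]
    simp only [inner_add_left, inner_add_right, real_inner_smul_left, real_inner_smul_right, hc]
    ring

/-- Positivity of the coefficient form in the coordinates `u, v`. -/
theorem pos_form {A : Fin 2 → Fin 2 → ℝ}
    (hpos : ∀ ξ : Fin 2 → ℝ, ξ ≠ 0 → 0 < ∑ i, ∑ j, A i j * ξ i * ξ j) {E w m u1 u2 v1 v2 : ℝ}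
    (h11 : A 0 0 = E * u1 * u1 + m * (u1 * v1 + v1 * u1) + w * v1 * v1)
    (h12 : A 0 1 = E * u1 * u2 + m * (u1 * v2 + v1 * u2) + w * v1 * v2)
    (h21 : A 1 0 = E * u2 * u1 + m * (u2 * v1 + v2 * u1) + w * v2 * v1)
    (h22 : A 1 1 = E * u2 * u2 + m * (u2 * v2 + v2 * u2) + w * v2 * v2) :
    ∀ s t : ℝ, (s ≠ 0 ∨ t ≠ 0) → 0 < E * s ^ 2 + 2 * m * (s * t) + w * t ^ 2 := by
  have key : ∀ s t : ℝ, (s ≠ 0 ∨ t ≠ 0) → 0 < E * (u1 * s + u2 * t) ^ 2 +
      2 * m * ((u1 * s + u2 * t) * (v1 * s + v2 * t)) + w * (v1 * s + v2 * t) ^ 2 := by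
    intro s t hst
    have hne : (![s, t] : Fin 2 → ℝ) ≠ 0 := by
      intro h0
      have h1 := congrFun h0 0
      have h2 := congrFun h0 1
      simp at h1 h2
      rcases hst with h | h
      · exact h h1
      · exact h h2
    have h := hpos ![s, t] hne
    simp only [Fin.sum_univ_two, h11, h12, h21, h22, Matrix.cons_val_zero, Matrix.cons_val_one] at h
    refine lt_of_lt_of_eq h ?_
    ring
  have hJ : u1 * v2 - u2 * v1 ≠ 0 := by
    intro hJ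
    by_cases hv : v1 ≠ 0 ∨ v2 ≠ 0
    · have h := key (-v2) v1 (by rcases hv with h | h; exact Or.inr h; exact Or.inl (neg_ne_zero.2 h))
      have e1 : u1 * -v2 + u2 * v1 = 0 := by linarith
      have e2 : v1 * -v2 + v2 * v1 = 0 := by ring
      rw [e1, e2] at h
      simp at h
    · push Not at hv
      by_cases hu : u1 ≠ 0 ∨ u2 ≠ 0
      · have h := key (-u2) u1 (by rcases hu with h | h; exact Or.inr h; exact Or.inl (neg_ne_zero.2 h))
        have e1 : u1 * -u2 + u2 * u1 = 0 := by ring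
        rw [e1, hv.1, hv.2] at h
        simp at h
      · push Not at hu
        have h := key 1 0 (Or.inl one_ne_zero)
        rw [hv.1, hv.2, hu.1, hu.2] at h
        simp at h
  intro s t hst
  have h := key ((s * v2 - t * u2) / (u1 * v2 - u2 * v1)) ((t * u1 - s * v1) / (u1 * v2 - u2 * v1)) (by
    by_contra hcon
    push Not at hcon
    have c1 : s * v2 - t * u2 = 0 := by
      have := hcon.1
      rwa [div_eq_zero_iff, or_iff_left hJ] at this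
    have c2 : t * u1 - s * v1 = 0 := by
      have := hcon.2
      rwa [div_eq_zero_iff, or_iff_left hJ] at this
    rcases hst with h | h
    · apply h
      have : s * (u1 * v2 - u2 * v1) = 0 := by linear_combination u1 * c1 + u2 * c2
      exact (mul_eq_zero.1 this).resolve_right hJ
    · apply h
      have : t * (u1 * v2 - u2 * v1) = 0 := by linear_combination v1 * c1 + v2 * c2
      exact (mul_eq_zero.1 this).resolve_right hJ)
  have e1 : u1 * ((s * v2 - t * u2) / (u1 * v2 - u2 * v1)) +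
      u2 * ((t * u1 - s * v1) / (u1 * v2 - u2 * v1)) = s := by
    rw [← mul_div_assoc, ← mul_div_assoc, ← add_div, div_eq_iff hJ]
    ring
  have e2 : v1 * ((s * v2 - t * u2) / (u1 * v2 - u2 * v1)) +
      v2 * ((t * u1 - s * v1) / (u1 * v2 - u2 * v1)) = t := by
    rw [← mul_div_assoc, ← mul_div_assoc, ← add_div, div_eq_iff hJ]
    ring
  rw [e1, e2] at h
  exact h

/-- antiderivatives of the square root of a smooth function, smooth where it is positive -/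
theorem antideriv {q : ℝ → ℝ} (hq : ContDiff ℝ ∞ q) (s0 : ℝ) :
    ∃ h : ℝ → ℝ, (∀ s, HasDerivAt h (Real.sqrt (q s)) s) ∧ ContDiffOn ℝ ∞ h {s | 0 < q s} := by
  have hI : IsOpen {s | 0 < q s} := isOpen_lt continuous_const hq.continuous
  have hsq : Continuous fun s => Real.sqrt (q s) := Real.continuous_sqrt.comp hq.continuous
  have hdh : ∀ s, HasDerivAt (fun s => ∫ t in s0..s, Real.sqrt (q t)) (Real.sqrt (q s)) s :=
    fun s => (hsq.integral_hasStrictDerivAt s0 s).hasDerivAt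
  refine ⟨_, hdh, ?_⟩
  rw [contDiffOn_infty_iff_deriv_of_isOpen hI]
  refine ⟨fun s _ => (hdh s).differentiableAt.differentiableWithinAt, ?_⟩
  exact (hq.contDiffOn.sqrt (fun s hs => ne_of_gt hs)).congr (fun s _ => (hdh s).deriv)

theorem antideriv' {q : ℝ → ℝ} (hq : ContDiff ℝ ∞ q) :
    ∃ h : ℝ → ℝ, (∀ s, HasDerivAt h (q s) s) ∧ ContDiff ℝ ∞ h := by
  have hdh : ∀ s, HasDerivAt (fun s => ∫ t in (0 : ℝ)..s, q t) (q s) s :=
    fun s => (hq.continuous.integral_hasStrictDerivAt 0 s).hasDerivAt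
  refine ⟨_, hdh, ?_⟩
  rw [contDiff_infty_iff_deriv]
  refine ⟨fun s => (hdh s).differentiableAt, ?_⟩
  have : deriv (fun s => ∫ t in (0 : ℝ)..s, q t) = q := funext fun s => (hdh s).deriv
  rw [this]
  exact hq

end Vale.Agent.H8MouldB
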