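import Vale.Agent.H8MouldB

namespace Vale.Agent.H8MouldC

open scoped ContDiff
open Set

theorem assemble {X : Type*} [NormedAddCommGroup X] [NormedSpace ℝ X] {e : Fin 2 → X} {Ω : Set (X)} (hΩ : IsOpen Ω)
    {g : X → Fin 2 → Fin 2 → ℝ} {p : X}
    (hp : p ∈ Ω) {u v : X → ℝ} (hu : ContDiffOn ℝ ∞ u Ω)
    (hv : ContDiffOn ℝ ∞ v Ω) {I : Set ℝ} (hI : IsOpen I) (hpI : u p ∈ I)
    {r h dr dh E : ℝ → ℝ} (hr : ContDiffOn ℝ ∞ r I) (hh : ContDiffOn ℝ ∞ h I)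
    (hdr : ∀ s ∈ I, HasDerivAt r (dr s) s) (hdh : ∀ s ∈ I, HasDerivAt h (dh s) s)
    (hE : ∀ s ∈ I, E s = dr s ^ 2 + dh s ^ 2)
    {a b c : ℝ → ℝ} (ha : ContDiff ℝ ∞ a) (hb : ContDiff ℝ ∞ b) (hc : ContDiff ℝ ∞ c)
    (hg : ∀ x ∈ Ω, ∀ i j : Fin 2, g x i j = E (u x) * fderiv ℝ u x (e i) *
        fderiv ℝ u x (e j) +
      (a (v x) + b (v x) * r (u x) + c (v x) * h (u x)) ^ 2 *
        fderiv ℝ v x (e i) * fderiv ℝ v x (e j)) :
    ∃ U : Set (X), IsOpen U ∧ p ∈ U ∧ U ⊆ Ω ∧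
    ∃ F : X → EuclideanSpace ℝ (Fin 3), ContDiffOn ℝ ∞ F U ∧
      ∀ x ∈ U, ∀ i j : Fin 2, inner ℝ (fderiv ℝ F x (e i))
        (fderiv ℝ F x (e j)) = g x i j := by
  obtain ⟨J, hJ, hvJ, γ, T, e₁, f, hγs, hes, hfs, hfr⟩ := H8Mould.frame ha hb hc (v p)
  have hU1 : IsOpen (Ω ∩ u ⁻¹' I) := hu.continuousOn.isOpen_inter_preimage hΩ hI
  have hU2 : IsOpen (Ω ∩ v ⁻¹' J) := hv.continuousOn.isOpen_inter_preimage hΩ hJ
  refine ⟨(Ω ∩ u ⁻¹' I) ∩ (Ω ∩ v ⁻¹' J), hU1.inter hU2, ⟨⟨hp, hpI⟩, ⟨hp, hvJ⟩⟩,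
    fun x hx => hx.1.1, fun x => γ (v x) + (r (u x) • e₁ (v x) + h (u x) • f (v x)), ?_, ?_⟩
  · have hu' : ContDiffOn ℝ ∞ u ((Ω ∩ u ⁻¹' I) ∩ (Ω ∩ v ⁻¹' J)) :=
      hu.mono (fun x hx => hx.1.1)
    have hv' : ContDiffOn ℝ ∞ v ((Ω ∩ u ⁻¹' I) ∩ (Ω ∩ v ⁻¹' J)) :=
      hv.mono (fun x hx => hx.1.1)
    have m1 : MapsTo u ((Ω ∩ u ⁻¹' I) ∩ (Ω ∩ v ⁻¹' J)) I := fun x hx => hx.1.2
    have m2 : MapsTo v ((Ω ∩ u ⁻¹' I) ∩ (Ω ∩ v ⁻¹' J)) J := fun x hx => hx.2.2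
    exact (hγs.comp hv' m2).add (((hr.comp hu' m1).smul (hes.comp hv' m2)).add
      ((hh.comp hu' m1).smul (hfs.comp hv' m2)))
  · intro x hx i j
    have hux : HasFDerivAt u (fderiv ℝ u x) x :=
      ((hu.contDiffAt (hΩ.mem_nhds hx.1.1)).differentiableAt (by simp)).hasFDerivAt
    have hvx : HasFDerivAt v (fderiv ℝ v x) x :=
      ((hv.contDiffAt (hΩ.mem_nhds hx.1.1)).differentiableAt (by simp)).hasFDerivAt
    obtain ⟨dγ, de, df, TT, ee, ff, Te, Tf, ef⟩ := hfr (v x) hx.2.2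
    have h1 := dγ.hasFDerivAt.comp x hvx
    have h2 := de.hasFDerivAt.comp x hvx
    have h3 := df.hasFDerivAt.comp x hvx
    have h4 := (hdr (u x) hx.1.2).hasFDerivAt.comp x hux
    have h5 := (hdh (u x) hx.1.2).hasFDerivAt.comp x hux
    have htot := h1.add ((h4.smul h2).add (h5.smul h3))
    have key : ∀ i : Fin 2,
        fderiv ℝ (fun x => γ (v x) + (r (u x) • e₁ (v x) + h (u x) • f (v x))) x
          (e i) =
        fderiv ℝ v x (e i) •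
            ((a (v x) + b (v x) * r (u x) + c (v x) * h (u x)) • T (v x)) +
          fderiv ℝ u x (e i) •
            (dr (u x) • e₁ (v x) + dh (u x) • f (v x)) := by
      intro i
      have h6 : fderiv ℝ (fun x => γ (v x) + (r (u x) • e₁ (v x) + h (u x) • f (v x))) x = _ :=
        htot.fderiv
      rw [h6]
      simp
      module
    have eT : inner ℝ (e₁ (v x)) (T (v x)) = 0 := by rw [real_inner_comm]; exact Te
    have fT : inner ℝ (f (v x)) (T (v x)) = 0 := by rw [real_inner_comm]; exact Tf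
    have fe : inner ℝ (f (v x)) (e₁ (v x)) = 0 := by rw [real_inner_comm]; exact ef
    rw [key i, key j, hg x hx.1.1 i j, hE _ hx.1.2]
    simp only [inner_add_left, inner_add_right, real_inner_smul_left, real_inner_smul_right,
      TT, ee, ff, Te, Tf, ef, eT, fT, fe]
    ring

/-- Surfaces of translation. -/
theorem assembleT {X : Type*} [NormedAddCommGroup X] [NormedSpace ℝ X] {e : Fin 2 → X} {Ω : Set (X)} (hΩ : IsOpen Ω)
    {g : X → Fin 2 → Fin 2 → ℝ} {p : X}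
    (hp : p ∈ Ω) {u v : X → ℝ} (hu : ContDiffOn ℝ ∞ u Ω)
    (hv : ContDiffOn ℝ ∞ v Ω) {I J : Set ℝ} (hI : IsOpen I) (hpI : u p ∈ I)
    (hJ : IsOpen J) (hpJ : v p ∈ J)
    {α β dα dβ : ℝ → EuclideanSpace ℝ (Fin 3)} (hα : ContDiffOn ℝ ∞ α I)
    (hβ : ContDiffOn ℝ ∞ β J)
    (hdα : ∀ s ∈ I, HasDerivAt α (dα s) s) (hdβ : ∀ s ∈ J, HasDerivAt β (dβ s) s)
    (hg : ∀ x ∈ Ω, u x ∈ I → v x ∈ J → ∀ i j : Fin 2, g x i j =
      inner ℝ (dα (u x)) (dα (u x)) * (fderiv ℝ u x (e i) *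
        fderiv ℝ u x (e j)) +
      inner ℝ (dα (u x)) (dβ (v x)) * (fderiv ℝ u x (e i) *
        fderiv ℝ v x (e j) + fderiv ℝ v x (e i) *
        fderiv ℝ u x (e j)) +
      inner ℝ (dβ (v x)) (dβ (v x)) * (fderiv ℝ v x (e i) *
        fderiv ℝ v x (e j))) :
    ∃ U : Set (X), IsOpen U ∧ p ∈ U ∧ U ⊆ Ω ∧
    ∃ F : X → EuclideanSpace ℝ (Fin 3), ContDiffOn ℝ ∞ F U ∧
      ∀ x ∈ U, ∀ i j : Fin 2, inner ℝ (fderiv ℝ F x (e i))
        (fderiv ℝ F x (e j)) = g x i j := by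
  have hU1 : IsOpen (Ω ∩ u ⁻¹' I) := hu.continuousOn.isOpen_inter_preimage hΩ hI
  have hU2 : IsOpen (Ω ∩ v ⁻¹' J) := hv.continuousOn.isOpen_inter_preimage hΩ hJ
  refine ⟨(Ω ∩ u ⁻¹' I) ∩ (Ω ∩ v ⁻¹' J), hU1.inter hU2, ⟨⟨hp, hpI⟩, ⟨hp, hpJ⟩⟩,
    fun x hx => hx.1.1, fun x => α (u x) + β (v x), ?_, ?_⟩
  · have hu' : ContDiffOn ℝ ∞ u ((Ω ∩ u ⁻¹' I) ∩ (Ω ∩ v ⁻¹' J)) :=
      hu.mono (fun x hx => hx.1.1)
    have hv' : ContDiffOn ℝ ∞ v ((Ω ∩ u ⁻¹' I) ∩ (Ω ∩ v ⁻¹' J)) :=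
      hv.mono (fun x hx => hx.1.1)
    have m1 : MapsTo u ((Ω ∩ u ⁻¹' I) ∩ (Ω ∩ v ⁻¹' J)) I := fun x hx => hx.1.2
    have m2 : MapsTo v ((Ω ∩ u ⁻¹' I) ∩ (Ω ∩ v ⁻¹' J)) J := fun x hx => hx.2.2
    exact (hα.comp hu' m1).add (hβ.comp hv' m2)
  · intro x hx i j
    have hux : HasFDerivAt u (fderiv ℝ u x) x :=
      ((hu.contDiffAt (hΩ.mem_nhds hx.1.1)).differentiableAt (by simp)).hasFDerivAt
    have hvx : HasFDerivAt v (fderiv ℝ v x) x :=
      ((hv.contDiffAt (hΩ.mem_nhds hx.1.1)).differentiableAt (by simp)).hasFDerivAt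
    have h1 := (hdα _ hx.1.2).hasFDerivAt.comp x hux
    have h2 := (hdβ _ hx.2.2).hasFDerivAt.comp x hvx
    have htot := h1.add h2
    have key : ∀ i : Fin 2, fderiv ℝ (fun x => α (u x) + β (v x)) x
          (e i) = fderiv ℝ u x (e i) • dα (u x) +
          fderiv ℝ v x (e i) • dβ (v x) := by
      intro i
      have h6 : fderiv ℝ (fun x => α (u x) + β (v x)) x = _ := htot.fderiv
      rw [h6]
      simp
    have hc : inner ℝ (dβ (v x)) (dα (u x)) = inner ℝ (dα (u x)) (dβ (v x)) :=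
      real_inner_comm _ _
    rw [key i, key j, hg x hx.1.1 hx.1.2 hx.2.2 i j]
    simp only [inner_add_left, inner_add_right, real_inner_smul_left, real_inner_smul_right, hc]
    ring

theorem moulding {X : Type*} [NormedAddCommGroup X] [NormedSpace ℝ X] {e : Fin 2 → X} {Ω : Set X} (hΩ : IsOpen Ω)
    {g : X → Fin 2 → Fin 2 → ℝ} {p : X} (hp : p ∈ Ω)
    (hpos : ∀ ξ : Fin 2 → ℝ, ξ ≠ 0 → 0 < ∑ i, ∑ j, g p i j * ξ i * ξ j)
    {u v : X → ℝ} (hu : ContDiffOn ℝ ∞ u Ω) (hv : ContDiffOn ℝ ∞ v Ω)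
    (hM : ∃ E a b c r h : ℝ → ℝ, ContDiff ℝ ∞ E ∧ ContDiff ℝ ∞ a ∧ ContDiff ℝ ∞ b ∧
    ContDiff ℝ ∞ c ∧ ContDiff ℝ ∞ r ∧ ContDiff ℝ ∞ h ∧
    ((∀ t, c t = 0) ∨ ∀ s, E s = deriv r s ^ 2 + deriv h s ^ 2) ∧
    ∀ x ∈ Ω, ∀ i j : Fin 2, g x i j = E (u x) * fderiv ℝ u x (e i) * fderiv ℝ u x (e j) +
      (a (v x) + b (v x) * r (u x) + c (v x) * h (u x)) ^ 2 * fderiv ℝ v x (e i) *
        fderiv ℝ v x (e j)) :
    ∃ U : Set X, IsOpen U ∧ p ∈ U ∧ U ⊆ Ω ∧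
    ∃ F : X → EuclideanSpace ℝ (Fin 3), ContDiffOn ℝ ∞ F U ∧
      ∀ x ∈ U, ∀ i j : Fin 2, inner ℝ (fderiv ℝ F x (e i)) (fderiv ℝ F x (e j)) = g x i j := by
  obtain ⟨E, a, b, c, r, h, hE, ha, hb, hc, hr, hh, hcase, hg⟩ := hM
  rcases hcase with hc0 | hcase
  · have hE0 : 0 < E (u p) := by
      have := H8MouldB.pos_form (E := E (u p)) (m := 0)
        (w := (a (v p) + b (v p) * r (u p) + c (v p) * h (u p)) ^ 2) (u1 := fderiv ℝ u p (e 0))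
        (u2 := fderiv ℝ u p (e 1)) (v1 := fderiv ℝ v p (e 0)) (v2 := fderiv ℝ v p (e 1)) hpos
        (by rw [hg p hp 0 0]; ring)
        (by rw [hg p hp 0 1]; ring) (by rw [hg p hp 1 0]; ring) (by rw [hg p hp 1 1]; ring)
        1 0 (Or.inl one_ne_zero)
      simpa using this
    set D := deriv r (u p) ^ 2 with hD
    have hD0 : 0 ≤ D := sq_nonneg _
    obtain ⟨ε, hε, hε'⟩ : ∃ ε : ℝ, 0 < ε ∧ ε ^ 2 * D < E (u p) := by
      refine ⟨min 1 (E (u p) / (D + 1)), lt_min one_pos (by positivity), ?_⟩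
      set m := min 1 (E (u p) / (D + 1)) with hmd
      have m0 : 0 ≤ m := le_min zero_le_one (by positivity)
      have m1 : m ≤ 1 := min_le_left _ _
      have m2 : m ≤ E (u p) / (D + 1) := min_le_right _ _
      have m3 : m ^ 2 ≤ m := by nlinarith
      calc m ^ 2 * D ≤ m * D := mul_le_mul_of_nonneg_right m3 hD0
        _ ≤ E (u p) / (D + 1) * D := mul_le_mul_of_nonneg_right m2 hD0
        _ < E (u p) := by
          rw [div_mul_eq_mul_div, div_lt_iff₀ (by positivity)]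
          nlinarith
    have hr' : ContDiff ℝ ∞ (deriv r) := (contDiff_infty_iff_deriv.1 hr).2
    obtain ⟨k, hk, hks⟩ := H8MouldB.antideriv (q := fun s => E s - ε ^ 2 * deriv r s ^ 2)
      (hE.sub (contDiff_const.mul (hr'.pow 2))) (u p)
    have hI : IsOpen {s | 0 < E s - ε ^ 2 * deriv r s ^ 2} :=
      isOpen_lt continuous_const (hE.sub (contDiff_const.mul (hr'.pow 2))).continuous
    have hpI : u p ∈ {s | 0 < E s - ε ^ 2 * deriv r s ^ 2} := by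
      show 0 < E (u p) - ε ^ 2 * deriv r (u p) ^ 2
      linarith
    refine assemble hΩ hp hu hv hI hpI (r := fun s => ε * r s)
      (h := k) (dr := fun s => ε * deriv r s)
      (dh := fun s => Real.sqrt (E s - ε ^ 2 * deriv r s ^ 2)) (E := E) (a := a)
      (b := fun t => b t / ε) (c := fun _ => 0) (contDiff_const.mul hr).contDiffOn hks ?_
      (fun s _ => hk s) ?_ ha (hb.div_const ε) contDiff_const ?_
    · intro s _
      exact ((hr.differentiable (by simp) s).hasDerivAt).const_mul ε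
    · intro s hs
      rw [Real.sq_sqrt (le_of_lt hs)]
      ring
    · intro x hx i j
      rw [hg x hx i j, hc0]
      field_simp
      ring
  · exact assemble hΩ hp hu hv isOpen_univ (mem_univ _) hr.contDiffOn hh.contDiffOn
      (fun s _ => (hr.differentiable (by simp) s).hasDerivAt)
      (fun s _ => (hh.differentiable (by simp) s).hasDerivAt) (fun s _ => hcase s) ha hb hc hg

theorem productNet {X : Type*} [NormedAddCommGroup X] [NormedSpace ℝ X] {e : Fin 2 → X} {Ω : Set X} (hΩ : IsOpen Ω)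
    {g : X → Fin 2 → Fin 2 → ℝ} {p : X} (hp : p ∈ Ω)
    (hpos : ∀ ξ : Fin 2 → ℝ, ξ ≠ 0 → 0 < ∑ i, ∑ j, g p i j * ξ i * ξ j)
    {u v : X → ℝ} (hu : ContDiffOn ℝ ∞ u Ω) (hv : ContDiffOn ℝ ∞ v Ω)
    (hN : ∃ E P Q G : ℝ → ℝ, ContDiff ℝ ∞ E ∧ ContDiff ℝ ∞ P ∧ ContDiff ℝ ∞ Q ∧
    ContDiff ℝ ∞ G ∧
    ∀ x ∈ Ω, ∀ i j : Fin 2, g x i j = E (u x) * fderiv ℝ u x (e i) * fderiv ℝ u x (e j) +
      P (u x) * Q (v x) * (fderiv ℝ u x (e i) * fderiv ℝ v x (e j) +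
        fderiv ℝ v x (e i) * fderiv ℝ u x (e j)) +
      G (v x) * fderiv ℝ v x (e i) * fderiv ℝ v x (e j)) :
    ∃ U : Set X, IsOpen U ∧ p ∈ U ∧ U ⊆ Ω ∧
    ∃ F : X → EuclideanSpace ℝ (Fin 3), ContDiffOn ℝ ∞ F U ∧
      ∀ x ∈ U, ∀ i j : Fin 2, inner ℝ (fderiv ℝ F x (e i)) (fderiv ℝ F x (e j)) = g x i j := by
  obtain ⟨E, P, Q, G, hE, hP, hQ, hG, hg⟩ := hN
  have hpos2 := H8MouldB.pos_form (E := E (u p)) (m := P (u p) * Q (v p)) (w := G (v p))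
    hpos (hg p hp 0 0) (hg p hp 0 1) (hg p hp 1 0) (hg p hp 1 1)
  have hE0 : 0 < E (u p) := by simpa using hpos2 1 0 (Or.inl one_ne_zero)
  have hG0 : 0 < G (v p) := by simpa using hpos2 0 1 (Or.inr one_ne_zero)
  have hdet : P (u p) ^ 2 * Q (v p) ^ 2 < E (u p) * G (v p) := by
    have h := hpos2 (-(P (u p) * Q (v p))) (E (u p)) (Or.inr hE0.ne')
    have h' : 0 < E (u p) * (E (u p) * G (v p) - P (u p) ^ 2 * Q (v p) ^ 2) := by
      refine lt_of_lt_of_eq h ?_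
      ring
    have := (pos_iff_pos_of_mul_pos h').1 hE0
    linarith
  obtain ⟨τ, hτ, hτ1, hτ2⟩ : ∃ τ : ℝ, 0 < τ ∧ τ ^ 2 * P (u p) ^ 2 < E (u p) ∧
      Q (v p) ^ 2 / τ ^ 2 < G (v p) := by
    set η := E (u p) - P (u p) ^ 2 * Q (v p) ^ 2 / G (v p) with hη
    have hη0 : 0 < η := by
      rw [hη, sub_pos, div_lt_iff₀ hG0]
      exact hdet
    set lam := Q (v p) ^ 2 / G (v p) + η / (P (u p) ^ 2 + 1) with hlam
    have hl0 : 0 < lam := by positivity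
    refine ⟨Real.sqrt lam, Real.sqrt_pos.2 hl0, ?_, ?_⟩
    · rw [Real.sq_sqrt hl0.le, hlam]
      have h1 : η / (P (u p) ^ 2 + 1) * P (u p) ^ 2 < η := by
        rw [div_mul_eq_mul_div, div_lt_iff₀ (by positivity)]
        nlinarith
      have h2 : Q (v p) ^ 2 / G (v p) * P (u p) ^ 2 = E (u p) - η := by
        rw [hη]
        ring
      rw [add_mul, h2]
      linarith
    · rw [Real.sq_sqrt hl0.le, div_lt_iff₀ hl0]
      have h1 : Q (v p) ^ 2 / G (v p) < lam := by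
        rw [hlam]
        have : 0 < η / (P (u p) ^ 2 + 1) := by positivity
        linarith
      rw [div_lt_iff₀ hG0] at h1
      linarith
  have hq1 : ContDiff ℝ ∞ fun s => E s - (τ * P s) ^ 2 := hE.sub ((contDiff_const.mul hP).pow 2)
  have hq2 : ContDiff ℝ ∞ fun s => G s - (Q s / τ) ^ 2 := hG.sub ((hQ.div_const τ).pow 2)
  obtain ⟨A, hA, hAs⟩ := H8MouldB.antideriv' (q := fun s => τ * P s) (contDiff_const.mul hP)
  obtain ⟨B, hB, hBs⟩ := H8MouldB.antideriv' (q := fun s => Q s / τ) (hQ.div_const τ)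
  obtain ⟨H, hH, hHs⟩ := H8MouldB.antideriv hq1 (u p)
  obtain ⟨K, hK, hKs⟩ := H8MouldB.antideriv hq2 (v p)
  refine assembleT hΩ hp hu hv (I := {s | 0 < E s - (τ * P s) ^ 2})
    (J := {s | 0 < G s - (Q s / τ) ^ 2}) (isOpen_lt continuous_const hq1.continuous) ?_
    (isOpen_lt continuous_const hq2.continuous) ?_
    (α := fun s => A s • EuclideanSpace.single (0 : Fin 3) (1 : ℝ) +
      H s • EuclideanSpace.single (1 : Fin 3) (1 : ℝ))
    (β := fun s => B s • EuclideanSpace.single (0 : Fin 3) (1 : ℝ) +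
      K s • EuclideanSpace.single (2 : Fin 3) (1 : ℝ))
    ((hAs.contDiffOn.smul contDiffOn_const).add (hHs.smul contDiffOn_const))
    ((hBs.contDiffOn.smul contDiffOn_const).add (hKs.smul contDiffOn_const))
    (fun s _ => ((hA s).smul_const _).add ((hH s).smul_const _))
    (fun s _ => ((hB s).smul_const _).add ((hK s).smul_const _)) ?_
  · show 0 < E (u p) - (τ * P (u p)) ^ 2
    rw [mul_pow]
    linarith
  · show 0 < G (v p) - (Q (v p) / τ) ^ 2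
    rw [div_pow]
    linarith
  · intro x hx hxI hxJ i j
    rw [hg x hx i j]
    have s1 := Real.sq_sqrt (le_of_lt (show 0 < E (u x) - (τ * P (u x)) ^ 2 from hxI))
    have s2 := Real.sq_sqrt (le_of_lt (show 0 < G (v x) - (Q (v x) / τ) ^ 2 from hxJ))
    have hE' : E (u x) = (τ * P (u x)) ^ 2 + Real.sqrt (E (u x) - (τ * P (u x)) ^ 2) ^ 2 := by
      rw [s1]; ring
    have hG' : G (v x) = (Q (v x) / τ) ^ 2 + Real.sqrt (G (v x) - (Q (v x) / τ) ^ 2) ^ 2 := by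
      rw [s2]; ring
    have hPQ : P (u x) * Q (v x) = (τ * P (u x)) * (Q (v x) / τ) := by
      field_simp
    have i1 : ∀ m n : Fin 3, inner ℝ (EuclideanSpace.single m (1 : ℝ) : EuclideanSpace ℝ (Fin 3))
        (EuclideanSpace.single n (1 : ℝ)) = if m = n then 1 else 0 := by
      intro m n
      rw [EuclideanSpace.inner_single_left]
      simp
    simp only [inner_add_left, inner_add_right, real_inner_smul_left, real_inner_smul_right, i1]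
    rw [hPQ]
    conv_lhs => rw [hE', hG']
    simp
    ring


end Vale.Agent.H8MouldC
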